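import Mathlib
import Vale.Agent.Lib.P057R.Final

/-!
A lower bound for sets of integers without `k`-term arithmetic progressions, `k ≥ 5`, with a new
constant in the exponent.
-/

namespace Vale.Agent.Results.P057.B_all

open Real

lemma tri_cast (r : ℕ) : (((r + 1) * (r + 2) / 2 : ℕ) : ℝ) = ((r : ℝ) + 1) * ((r : ℝ) + 2) / 2 := by
  have h : 2 ∣ (r + 1) * (r + 2) := by
    have := Nat.even_mul_succ_self (r + 1)
    exact this.two_dvd
  rw [Nat.cast_div h (by norm_num)]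
  push_cast
  ring

/-- the constant in closed form -/
lemma const_eq (r : ℕ) :
    (2 * log (12 / 7) * Vale.Agent.Lib.P057R.Acoef 1 r) ^ ((1 : ℝ) / ((r + 2 : ℕ) : ℝ)) =
      2 ^ (((r : ℝ) + 1) / 2) * (log 2) ^ ((r : ℝ) / ((r : ℝ) + 2)) *
        (log (12 / 7)) ^ ((1 : ℝ) / ((r : ℝ) + 2)) := by
  have hα : 0 < log (12 / 7 : ℝ) := Real.log_pos (by norm_num)
  have hL : 0 < log (2 : ℝ) := Real.log_pos (by norm_num)
  have hn : ((r : ℝ) + 2) ≠ 0 := by positivity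
  have hT : (r * 1 + r * (r + 1) / 2) + 1 = (r + 1) * (r + 2) / 2 := by
    rw [Vale.Agent.Lib.P057R.tri_succ]
    ring
  have e1 : 2 * log (12 / 7) * Vale.Agent.Lib.P057R.Acoef 1 r =
      (2 : ℝ) ^ ((r + 1) * (r + 2) / 2 : ℕ) * (log 2) ^ r * log (12 / 7) := by
    rw [Vale.Agent.Lib.P057R.Acoef_eq, ← hT, pow_succ]
    ring
  rw [e1]
  push_cast
  rw [Real.mul_rpow (by positivity) hα.le, Real.mul_rpow (by positivity) (by positivity)]
  congr 1
  congr 1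
  · rw [← Real.rpow_natCast, ← Real.rpow_mul (by norm_num), tri_cast]
    congr 1
    field_simp
  · rw [← Real.rpow_natCast, ← Real.rpow_mul hL.le]
    congr 1
    field_simp

/-- For all integers `n ≥ 3` and `k > 2^(n-1)` and every `ε > 0`: for all large `N` there is a
subset of `{1, …, N}` without `k`-term arithmetic progressions (common difference positive) of
size at least `N * exp (-(c + ε) (log N)^(1/n))`, where
`c = n * 2^((n-1)/2) * (log 2)^((n-2)/n) * (log (12/7))^(1/n)`. -/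
theorem result (n k : ℕ) (hn : 3 ≤ n) (hk : 2 ^ (n - 1) < k) (ε : ℝ) (hε : 0 < ε) :
    ∃ N₀ : ℕ, ∀ N : ℕ, N₀ ≤ N → ∃ A : Finset ℕ, A ⊆ Finset.Icc 1 N ∧
      (∀ a d : ℕ, 0 < d → ¬ ∀ j < k, a + j * d ∈ A) ∧
      (N : ℝ) * exp (-(((n : ℝ) * 2 ^ (((n : ℝ) - 1) / 2) * (log 2) ^ (((n : ℝ) - 2) / (n : ℝ)) *
          (log (12 / 7)) ^ ((1 : ℝ) / (n : ℝ)) + ε) * (log (N : ℝ)) ^ ((1 : ℝ) / (n : ℝ))))
        ≤ (A.card : ℝ) := by
  obtain ⟨r, rfl⟩ : ∃ r, n = r + 2 := ⟨n - 2, by omega⟩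
  have hr : 1 ≤ r := by omega
  have hk' : 2 ^ (r + 1) < k := by
    rwa [show r + 2 - 1 = r + 1 by omega] at hk
  have hk5 : 5 ≤ k := by
    have h4 : 2 ^ 2 ≤ 2 ^ (r + 1) := Nat.pow_le_pow_right (by norm_num) (by omega)
    omega
  have h := Vale.Agent.Lib.P057R.general_lower r k hk5 hk' hr ε hε
  rw [const_eq] at h
  have e1 : (((r + 2 : ℕ) : ℝ) - 1) / 2 = ((r : ℝ) + 1) / 2 := by
    push_cast
    ring
  have e2 : (((r + 2 : ℕ) : ℝ) - 2) / ((r + 2 : ℕ) : ℝ) = (r : ℝ) / ((r : ℝ) + 2) := by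
    push_cast
    ring
  have e3 : (1 : ℝ) / ((r + 2 : ℕ) : ℝ) = (1 : ℝ) / ((r : ℝ) + 2) := by
    push_cast
    ring
  rw [e1, e2, e3]
  rw [e3] at h
  simpa only [mul_assoc] using h

end Vale.Agent.Results.P057.B_all
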