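import Mathlib
import Vale.Agent.Lib.P057.Main
import Vale.Agent.Lib.P057.Table1024

namespace Vale.Agent.Results.P057.B_main

open Vale.Agent.Lib.P057

theorem den_le : ((400 : ℕ) : ℝ) ≤ (121 : ℕ) * Real.exp (7473 / 6250) := by
  have h := Real.sum_le_exp_of_nonneg (x := 7473 / 6250) (by norm_num) 16
  have h2 : (400 : ℝ) / 121 ≤ ∑ i ∈ Finset.range 16, ((7473 / 6250 : ℝ)) ^ i / (i.factorial : ℝ) := by
    norm_num [Finset.sum_range_succ, Nat.factorial]
  push_cast
  linarith

/-- For all large `N`, the Roth number of `N` is at least `N * exp (-(2187 / 1000) * √(log N))`. -/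
theorem result : ∃ N0 : ℕ, ∀ N : ℕ, N0 ≤ N →
    (N : ℝ) * Real.exp (-(2187 / 1000) * √(Real.log N)) ≤ rothNumberNat N :=
  final_bound 121 400 (101 * (theTableC.N * theTableC.G) ^ 2)
    (theTableC.G * theTableC.N + theTableC.D +
      2 * 400 * theTableC.N * (theTableC.G - 2) * theTableC.D + 2)
    (by norm_num) (by norm_num) (κ := 9145 / 10000) (ε := 1 / 100000) (by norm_num) (by norm_num)
    (by norm_num) (by norm_num) den_le (by norm_num)
    (fun X n M h1 h2 h3 h4 => core_of_table theTableC_valid theTableC_area X n M h1 h2 h3 h4)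

end Vale.Agent.Results.P057.B_main
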