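import Vale.Agent.Results.P057.A_r4
import Vale.Agent.Results.P057.B_all
import Vale.Agent.Results.P057.B_main

/-!
The new lower bounds for progression-free sets of integers, for every progression length at once.
-/

namespace Vale.Agent.Results.P057.AAA_union

open Real

/-- Lower bounds for `r_k(N)` for every `k ≥ 3`: the Roth number with constant `2.187`; four-term
progressions with constant `2 √(log (81/25)) = 2.1685…`; and `k`-term progressions, `k ≥ 5`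
(`n = ⌈log₂ k⌉`), with the constant `n 2^((n-1)/2) (log 2)^((n-2)/n) (log (12/7))^(1/n) + ε`. -/
theorem result :
    (∃ N0 : ℕ, ∀ N : ℕ, N0 ≤ N →
      (N : ℝ) * Real.exp (-(2187 / 1000) * √(Real.log N)) ≤ rothNumberNat N) ∧
    (∃ N₀ : ℕ, ∀ N : ℕ, N₀ ≤ N → ∃ A : Finset ℕ, A ⊆ Finset.Icc 1 N ∧
      (∀ a d : ℕ, 0 < d → ¬ (a ∈ A ∧ a + d ∈ A ∧ a + 2 * d ∈ A ∧ a + 3 * d ∈ A)) ∧
      (N : ℝ) * exp (-(2 * √(log (81 / 25))) * √(log (N : ℝ))) / (log (N : ℝ)) ^ 2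
        ≤ (A.card : ℝ)) ∧
    (∀ (n k : ℕ), 3 ≤ n → 2 ^ (n - 1) < k → ∀ ε : ℝ, 0 < ε →
      ∃ N₀ : ℕ, ∀ N : ℕ, N₀ ≤ N → ∃ A : Finset ℕ, A ⊆ Finset.Icc 1 N ∧
        (∀ a d : ℕ, 0 < d → ¬ ∀ j < k, a + j * d ∈ A) ∧
        (N : ℝ) * exp (-(((n : ℝ) * 2 ^ (((n : ℝ) - 1) / 2) *
            (log 2) ^ (((n : ℝ) - 2) / (n : ℝ)) *
            (log (12 / 7)) ^ ((1 : ℝ) / (n : ℝ)) + ε) * (log (N : ℝ)) ^ ((1 : ℝ) / (n : ℝ))))
          ≤ (A.card : ℝ)) :=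
  ⟨Vale.Agent.Results.P057.B_main.result, Vale.Agent.Results.P057.A_r4.result,
    fun n k hn hk ε hε => Vale.Agent.Results.P057.B_all.result n k hn hk ε hε⟩

end Vale.Agent.Results.P057.AAA_union
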