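import Mathlib
import Vale.Agent.Lib.P057.Main
import Vale.Agent.Lib.P057.Table

namespace Vale.Agent.Results.P057.A_main

open Vale.Agent.Lib.P057

theorem ten_le : ((10 : ℕ) : ℝ) ≤ (3 : ℕ) * Real.exp (241 / 200) := by
  have h := Real.sum_le_exp_of_nonneg (x := 241 / 200) (by norm_num) 12
  have h2 : (10 : ℝ) / 3 ≤ ∑ i ∈ Finset.range 12, ((241 / 200 : ℝ)) ^ i / (i.factorial : ℝ) := by
    norm_num [Finset.sum_range_succ, Nat.factorial]
  push_cast
  linarith

/-- For all large `N`, the Roth number of `N` is at least `N * exp (-(11 / 5) * √(log N))`. -/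
theorem result : ∃ N0 : ℕ, ∀ N : ℕ, N0 ≤ N →
    (N : ℝ) * Real.exp (-(11 / 5) * √(Real.log N)) ≤ rothNumberNat N :=
  final_bound 3 10 (101 * (theTable.N * theTable.G) ^ 2)
    (theTable.G * theTable.N + theTable.D + 2 * 10 * theTable.N * (theTable.G - 2) * theTable.D + 2)
    (by norm_num) (by norm_num) (κ := 91 / 100) (ε := 1 / 250) (by norm_num) (by norm_num)
    (by norm_num) (by norm_num) ten_le (by norm_num)
    (fun X n M h1 h2 h3 h4 => core_of_table theTable_valid theTable_area X n M h1 h2 h3 h4)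

end Vale.Agent.Results.P057.A_main
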