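import Mathlib
import Vale.Agent.Lib.P057R.Main

/-!
A lower bound for sets of integers without four-term arithmetic progressions, with a new
constant in the exponent.
-/

namespace Vale.Agent.Results.P057.A_r4

open Real

/-- For all large `N` there is a subset of `{1, …, N}` without four-term arithmetic progressions
(common difference positive) of size at least
`N * exp (-2 √(log (81/25)) √(log N)) / (log N)^2`. -/
theorem result : ∃ N₀ : ℕ, ∀ N : ℕ, N₀ ≤ N → ∃ A : Finset ℕ, A ⊆ Finset.Icc 1 N ∧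
    (∀ a d : ℕ, 0 < d → ¬ (a ∈ A ∧ a + d ∈ A ∧ a + 2 * d ∈ A ∧ a + 3 * d ∈ A)) ∧
    (N : ℝ) * exp (-(2 * √(log (81 / 25))) * √(log (N : ℝ))) / (log (N : ℝ)) ^ 2
      ≤ (A.card : ℝ) :=
  Vale.Agent.Lib.P057R.r4_lower

end Vale.Agent.Results.P057.A_r4
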