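import Mathlib
import Vale.Agent.Lib.P057.Four.Final

namespace Vale.Agent.Results.P057.D_four

/-- For all large `N` there is a subset of `{1, ..., N}` with no nontrivial four-term arithmetic
progression and of size at least `N * exp (-(217 / 100) * √(log N))`. -/
theorem result : ∃ N0 : ℕ, ∀ N : ℕ, N0 ≤ N → ∃ A : Finset ℕ, A ⊆ Finset.Icc 1 N ∧
    (∀ a d : ℕ, 0 < d → ¬ (a ∈ A ∧ a + d ∈ A ∧ a + 2 * d ∈ A ∧ a + 3 * d ∈ A)) ∧
    (N : ℝ) * Real.exp (-(217 / 100) * √(Real.log N)) ≤ A.card :=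
  Vale.Agent.Lib.P057.Four.final_four_Icc

end Vale.Agent.Results.P057.D_four
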